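import Mathlib

/-!
# P057: the asymptotic choice of `n` and `u` (pure real analysis)

Blueprint. Let `λ = logb 2 (9/5) > 0`, `L = logb 2 N`, `x = √L`, `C₀ = 2 √(2 λ)`.
Take `n = ⌈√(2 L / λ)⌉₊` and `u = ⌈(2 N)^(1/n)⌉₊`. Then `√(2/λ) x ≤ n ≤ √(2/λ) x + 1`,
`(9/5)^n = 2^(λ n) ≤ 2^(√(2 λ) x + λ)`, `u ≤ 2 (2N)^(1/n)`, `u^2 ≤ 4 * 2^(2 (L+1)/n) ≤ 16 * 2^(2 L/n)` and
`2 L / n ≤ √(2 λ) x`. So the left side is at most `2^(C₀ x) * (256 * 2^λ * n)` and `256 * 2^λ * n ≤ 2^((C - C₀) x)`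
for large `x` (linear versus exponential). The side conditions hold for large `N`: for `n ≥ 2`,
`u ≤ 2 √(2 N)`, and `n ≤ 2 √(logb 2 N) + 1`.
-/

namespace Vale.Agent.Lib.P057

open Filter

lemma asym_exp (δ : ℝ) (hδ : 0 < δ) :
    ∀ᶠ x : ℝ in atTop, 512 * (2 * x + 1) ≤ (2 : ℝ) ^ (δ * x) := by
  have hl2 : 0 < Real.log 2 := Real.log_pos (by norm_num)
  set c : ℝ := Real.log 2 * δ with hc
  have hcpos : 0 < c := mul_pos hl2 hδ
  filter_upwards [eventually_ge_atTop (max 1 (3072 / c ^ 2))] with x hx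
  have hx1 : 1 ≤ x := le_trans (le_max_left _ _) hx
  have hx2 : 3072 / c ^ 2 ≤ x := le_trans (le_max_right _ _) hx
  rw [div_le_iff₀ (by positivity)] at hx2
  rw [Real.rpow_def_of_pos two_pos]
  have h := Real.quadratic_le_exp_of_nonneg (x := Real.log 2 * (δ * x)) (by positivity)
  have e : Real.log 2 * (δ * x) = c * x := by rw [hc]; ring
  rw [e] at h ⊢
  have h3 : 3072 * x ≤ (c * x) ^ 2 := by
    have : 3072 * x ≤ (x * c ^ 2) * x := by gcongr
    nlinarith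
  have h4 : 0 ≤ c * x := by positivity
  linarith

lemma lam_bounds : 1 / 2 ≤ Real.logb 2 (9 / 5) ∧ Real.logb 2 (9 / 5) ≤ 1 := by
  constructor
  · rw [Real.le_logb_iff_rpow_le (by norm_num) (by norm_num), ← Real.sqrt_eq_rpow,
      Real.sqrt_le_left (by norm_num)]
    norm_num
  · rw [Real.logb_le_iff_le_rpow (by norm_num) (by norm_num)]
    norm_num

/-- the constants: `s = √(2 λ)`, `κ = √(2 / λ)` -/
lemma consts : ∃ κ : ℝ, 1 ≤ κ ∧ κ ≤ 2 ∧ √(2 * Real.logb 2 (9 / 5)) * κ = 2 ∧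
    Real.logb 2 (9 / 5) * κ = √(2 * Real.logb 2 (9 / 5)) := by
  obtain ⟨h1, h2⟩ := lam_bounds
  set lam : ℝ := Real.logb 2 (9 / 5) with hlam
  have hpos : 0 < lam := by linarith
  have hk2 : √(2 / lam) ^ 2 = 2 / lam := Real.sq_sqrt (by positivity)
  have hsk : √(2 * lam) * √(2 / lam) = 2 := by
    rw [← Real.sqrt_mul (by positivity)]
    have : 2 * lam * (2 / lam) = 2 ^ 2 := by field_simp
    rw [this, Real.sqrt_sq (by norm_num)]
  have hkpos : 0 < √(2 / lam) := Real.sqrt_pos.mpr (by positivity)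
  refine ⟨√(2 / lam), ?_, ?_, hsk, ?_⟩
  · rw [Real.le_sqrt' (by norm_num), le_div_iff₀ hpos]; linarith
  · rw [Real.sqrt_le_left (by norm_num), div_le_iff₀ hpos]; linarith
  · have h3 : lam * √(2 / lam) * √(2 / lam) = √(2 * lam) * √(2 / lam) := by
      rw [hsk, mul_assoc, ← sq, hk2]; field_simp
    exact mul_right_cancel₀ hkpos.ne' h3

lemma asym_core (C : ℝ) (N : ℕ) (x : ℝ) (hx : x = √(Real.logb 2 N)) (hx5 : 5 ≤ x)
    (h2 : 512 * (2 * x + 1) ≤ (2 : ℝ) ^ ((C - 2 * √(2 * Real.logb 2 (9 / 5))) * x)) :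
    ∃ n u : ℕ, 1 ≤ n ∧ 2 * N ≤ u ^ n ∧ 6 * u ≤ N ∧ 7 * n ≤ N ∧
      (16 * n * (u : ℝ) ^ 2) * (9 / 5) ^ n ≤ 2 ^ (C * x) := by
  obtain ⟨hl1, hl2⟩ := lam_bounds
  obtain ⟨κ, hκ1, hκ2, hsκ, hlκ⟩ := consts
  have h95 : (2 : ℝ) ^ Real.logb 2 (9 / 5) = 9 / 5 :=
    Real.rpow_logb two_pos (by norm_num) (by norm_num)
  set lam : ℝ := Real.logb 2 (9 / 5) with hlam
  set s : ℝ := √(2 * lam) with hs
  have hs0 : 0 ≤ s := Real.sqrt_nonneg _
  set L : ℝ := Real.logb 2 N with hL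
  have hLx : L = x ^ 2 := by
    have : 0 ≤ L := by
      by_contra h
      rw [not_le] at h
      rw [hx, Real.sqrt_eq_zero_of_nonpos h.le] at hx5
      norm_num at hx5
    rw [hx, Real.sq_sqrt this]
  have hNpos : (0 : ℝ) < N := by
    rcases Nat.eq_zero_or_pos N with h | h
    · exfalso
      rw [hL, h] at hLx
      simp at hLx
      nlinarith
    · exact_mod_cast h
  have hN2 : (N : ℝ) = 2 ^ L := (Real.rpow_logb two_pos (by norm_num) hNpos).symm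
  have hNbig : 1 + 31 * x ≤ N := by
    have h1 : (2:ℝ) ^ (5 * x) ≤ 2 ^ L :=
      Real.rpow_le_rpow_of_exponent_le (by norm_num)
        (by rw [hLx, sq]; exact mul_le_mul_of_nonneg_right hx5 (by linarith))
    have h3 : (2:ℝ) ^ (5 * x) = (1 + 31) ^ x := by
      rw [Real.rpow_mul (by norm_num)]; norm_num
    have h4 := one_add_mul_self_le_rpow_one_add (s := (31:ℝ)) (by norm_num) (p := x) (by linarith)
    rw [hN2]; linarith
  have hN100 : (100 : ℝ) ≤ N := by linarith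
  -- the choice of n
  have hκx : 0 ≤ κ * x := by positivity
  set n : ℕ := ⌈κ * x⌉₊ with hn
  have hn1 : κ * x ≤ n := Nat.le_ceil _
  have hn2 : (n : ℝ) < κ * x + 1 := Nat.ceil_lt_add_one hκx
  have hxκ : x ≤ κ * x := le_mul_of_one_le_left (by linarith) hκ1
  have hn5 : (5 : ℝ) ≤ n := by linarith
  have hnpos : (0 : ℝ) < n := by linarith
  have hn0 : n ≠ 0 := by
    intro h; rw [h] at hnpos; simp at hnpos
  have hκx2 : κ * x ≤ 2 * x := mul_le_mul_of_nonneg_right hκ2 (by linarith)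
  have hnx : (n : ℝ) ≤ 2 * x + 1 := by linarith
  -- the choice of u
  set w : ℝ := (2 * (N : ℝ)) ^ ((n : ℝ)⁻¹) with hw
  have h2N : (1 : ℝ) ≤ 2 * N := by linarith
  have hw1 : 1 ≤ w := Real.one_le_rpow h2N (by positivity)
  have hwn : w ^ n = 2 * N := Real.rpow_inv_natCast_pow (by linarith) hn0
  set u : ℕ := ⌈w⌉₊ with hu
  have hu1 : w ≤ u := Nat.le_ceil _
  have hu2 : (u : ℝ) < w + 1 := Nat.ceil_lt_add_one (by linarith)
  refine ⟨n, u, Nat.one_le_iff_ne_zero.mpr hn0, ?_, ?_, ?_, ?_⟩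
  · have : (2 * N : ℝ) ≤ (u : ℝ) ^ n := by
      rw [← hwn]; exact pow_le_pow_left₀ (by linarith) hu1 n
    exact_mod_cast this
  · have hw2 : w ≤ √(2 * N) := by
      rw [Real.sqrt_eq_rpow, hw]
      refine Real.rpow_le_rpow_of_exponent_le h2N ?_
      rw [one_div]
      exact inv_anti₀ (by norm_num) (by linarith)
    have hsq : √(2 * N) ≤ N / 6 - 1 := by
      rw [Real.sqrt_le_left (by linarith)]
      have h100 : 100 * (N : ℝ) ≤ N * N := mul_le_mul_of_nonneg_right hN100 hNpos.le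
      have e : ((N : ℝ) / 6 - 1) ^ 2 = N * N / 36 - N / 3 + 1 := by ring
      rw [e]
      linarith
    have : (6 * u : ℝ) ≤ N := by linarith
    exact_mod_cast this
  · have : (7 * n : ℝ) ≤ N := by linarith
    exact_mod_cast this
  · -- main inequality
    have e1 : ((9 : ℝ) / 5) ^ n = 2 ^ (lam * n) := by
      rw [Real.rpow_mul_natCast (by norm_num), h95]
    have b1 : lam * n ≤ s * x + 1 := by
      have : lam * n ≤ lam * (κ * x + 1) := by gcongr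
      have e : lam * (κ * x + 1) = s * x + lam := by rw [← hlκ]; ring
      linarith
    have e2 : w ^ 2 = 2 ^ ((L + 1) * ((n : ℝ)⁻¹ * 2)) := by
      have h2N' : (2 * (N : ℝ)) = 2 ^ (L + 1) := by
        rw [Real.rpow_add_one (by norm_num), ← hN2]; ring
      rw [hw, h2N', ← Real.rpow_mul (by norm_num), ← Real.rpow_natCast, ← Real.rpow_mul (by norm_num)]
      congr 1
      push_cast
      ring
    have b2 : (L + 1) * ((n : ℝ)⁻¹ * 2) ≤ s * x + 2 := by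
      have h1 : (L + 1) * ((n : ℝ)⁻¹ * 2) = (2 * L + 2) / n := by field_simp
      rw [h1, div_le_iff₀ hnpos, hLx]
      have h3 : s * x * (κ * x) ≤ s * x * n := by gcongr
      have h4 : s * x * (κ * x) = 2 * x ^ 2 := by
        calc s * x * (κ * x) = (s * κ) * x ^ 2 := by ring
          _ = 2 * x ^ 2 := by rw [hsκ]
      have h5 : (s * x + 2) * n = s * x * n + 2 * n := by ring
      rw [h5]
      linarith
    have b3 : (u : ℝ) ^ 2 ≤ 4 * w ^ 2 := by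
      have : (u : ℝ) ≤ 2 * w := by linarith
      have h0 : (0 : ℝ) ≤ u := by positivity
      calc (u : ℝ) ^ 2 ≤ (2 * w) ^ 2 := pow_le_pow_left₀ h0 this 2
        _ = 4 * w ^ 2 := by ring
    have p1 : (2 : ℝ) ^ (lam * n) ≤ 2 ^ (s * x + 1) :=
      Real.rpow_le_rpow_of_exponent_le (by norm_num) b1
    have p2 : (2 : ℝ) ^ ((L + 1) * ((n : ℝ)⁻¹ * 2)) ≤ 2 ^ (s * x + 2) :=
      Real.rpow_le_rpow_of_exponent_le (by norm_num) b2
    have q1 : (2 : ℝ) ^ (s * x + 1) = 2 * 2 ^ (s * x) := by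
      rw [Real.rpow_add_one (by norm_num)]; ring
    have q2 : (2 : ℝ) ^ (s * x + 2) = 4 * 2 ^ (s * x) := by
      rw [Real.rpow_add (by norm_num)]; norm_num; ring
    have q3 : (2 : ℝ) ^ (C * x) = 2 ^ ((C - 2 * s) * x) * (2 ^ (s * x) * 2 ^ (s * x)) := by
      rw [← Real.rpow_add (by norm_num), ← Real.rpow_add (by norm_num)]
      congr 1; ring
    set T : ℝ := (2 : ℝ) ^ (s * x) with hT
    have hTpos : 0 < T := Real.rpow_pos_of_pos (by norm_num) _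
    rw [e1, q3]
    calc 16 * (n : ℝ) * (u : ℝ) ^ 2 * 2 ^ (lam * n)
        ≤ 16 * (2 * x + 1) * (4 * (4 * T)) * (2 * T) := by
          have : (u : ℝ) ^ 2 ≤ 4 * (4 * T) := by
            rw [e2] at b3
            rw [q2] at p2
            linarith
          rw [q1] at p1
          gcongr
      _ = 512 * (2 * x + 1) * (T * T) := by ring
      _ ≤ _ := by gcongr

theorem asym (C : ℝ) (hC : 2 * √(2 * Real.logb 2 (9 / 5)) < C) :
    ∃ N₀ : ℕ, ∀ N : ℕ, N₀ ≤ N → ∃ n u : ℕ, 1 ≤ n ∧ 2 * N ≤ u ^ n ∧ 6 * u ≤ N ∧ 7 * n ≤ N ∧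
      (16 * n * (u : ℝ) ^ 2) * (9 / 5) ^ n ≤ 2 ^ (C * √(Real.logb 2 N)) := by
  have hδ : 0 < C - 2 * √(2 * Real.logb 2 (9 / 5)) := by linarith
  have hev : ∀ᶠ x : ℝ in atTop, 5 ≤ x ∧
      512 * (2 * x + 1) ≤ (2 : ℝ) ^ ((C - 2 * √(2 * Real.logb 2 (9 / 5))) * x) :=
    (eventually_ge_atTop 5).and (asym_exp _ hδ)
  have htend : Tendsto (fun N : ℕ => √(Real.logb 2 (N : ℝ))) atTop atTop :=
    Real.tendsto_sqrt_atTop.comp
      ((Real.tendsto_logb_atTop (by norm_num)).comp tendsto_natCast_atTop_atTop)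
  obtain ⟨N₀, hN₀⟩ := eventually_atTop.mp (htend.eventually hev)
  refine ⟨N₀, fun N hN => ?_⟩
  obtain ⟨h5, h2⟩ := hN₀ N hN
  exact asym_core C N _ rfl h5 h2

end Vale.Agent.Lib.P057
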