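import Mathlib

/-!
# P057: averaging over affine maps `x ↦ x • a + b` into `(ZMod p)^n` and deletion

Blueprint for `exists_ap4free_of_step`. Write `V = Fin n → ZMod p`. For `(a, b) : V × V` let
`A a b = {x ∈ Icc 1 N | (x : ZMod p) • a + b ∈ T}` and
`Bad a b = {(x, d) ∈ Icc 1 N ×ˢ Icc 1 N | x, x + d, x + 2 d, x + 3 d ∈ A a b}`.
* `∑_{a,b} |A a b| = N * p^n * |T|`: for fixed `x, a` the map `b ↦ x • a + b` is a bijection of `V`.
* if `(x, d) ∈ Bad a b` then `x + 3 d ≤ N`, so `0 < d < p` and `(d : ZMod p) ≠ 0`; by `hstep` (with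
  `y = x • a + b`, `r = d • a`) we get `d • a ∈ B`. For fixed `x, d` the number of `(a, b)` with `d • a ∈ B` and
  `x • a + b ∈ T` is `|B| * |T|`. Hence `∑_{a,b} |Bad a b| ≤ N * N * |B| * |T|`.
* so `∑_{a,b} (2 |A a b| - 2 |Bad a b|) ≥ N |T| (2 p^n - 2 N |B|) ≥ N |T| p^n` and there are `p^(2n)` pairs: some
  pair has `2 p^n (|A a b| - |Bad a b|) ≥ N |T|` (`Finset.exists_le_of_sum_le` or similar).
* delete from `A a b` the first terms `x` of the bad pairs.
-/

namespace Vale.Agent.Lib.P057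

open Finset

/-- no four-term arithmetic progression with positive common difference -/
def AP4Free (A : Finset ℕ) : Prop :=
  ∀ a d : ℕ, 0 < d → ¬(a ∈ A ∧ a + d ∈ A ∧ a + 2 * d ∈ A ∧ a + 3 * d ∈ A)

lemma card_shift (p n : ℕ) [Fact p.Prime] (T : Finset (Fin n → ZMod p)) (c : Fin n → ZMod p) :
    (univ.filter (fun b => c + b ∈ T)).card = T.card := by
  apply Finset.card_bij (fun b _ => c + b)
  · intro b hb
    simpa using hb
  · intro b1 _ b2 _ h
    exact add_left_cancel h
  · intro t ht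
    exact ⟨t - c, by simp [ht], by simp⟩

lemma card_dil (p n : ℕ) [Fact p.Prime] (B : Finset (Fin n → ZMod p)) (d : ZMod p) (hd : d ≠ 0) :
    (univ.filter (fun a : Fin n → ZMod p => d • a ∈ B)).card ≤ B.card := by
  apply Finset.card_le_card_of_injOn (fun a => d • a)
  · intro a ha
    simpa using ha
  · intro a1 _ a2 _ h
    exact smul_right_injective _ hd h

/-- the pull-back of `T` under `x ↦ x • a + b` -/
def pullA (p n N : ℕ) (T : Finset (Fin n → ZMod p)) (a b : Fin n → ZMod p) : Finset ℕ :=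
  (Icc 1 N).filter (fun x => (x : ZMod p) • a + b ∈ T)

/-- the progressions inside the pull-back -/
def pullBad (p n N : ℕ) (T : Finset (Fin n → ZMod p)) (a b : Fin n → ZMod p) : Finset (ℕ × ℕ) :=
  ((Icc 1 N) ×ˢ (Icc 1 N)).filter (fun xd => xd.1 ∈ pullA p n N T a b ∧
    xd.1 + xd.2 ∈ pullA p n N T a b ∧ xd.1 + 2 * xd.2 ∈ pullA p n N T a b ∧
    xd.1 + 3 * xd.2 ∈ pullA p n N T a b)

lemma card_V (p n : ℕ) [Fact p.Prime] : (univ : Finset (Fin n → ZMod p)).card = p ^ n := by
  simp [card_univ, ZMod.card]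

lemma sum_pullA (p n N : ℕ) [Fact p.Prime] (T : Finset (Fin n → ZMod p)) :
    ∑ a, ∑ b, (pullA p n N T a b).card = p ^ n * (N * T.card) := by
  have h : ∀ a : Fin n → ZMod p, ∑ b, (pullA p n N T a b).card = N * T.card := by
    intro a
    simp only [pullA, card_filter]
    rw [sum_comm]
    have h1 : ∀ x ∈ Icc 1 N, ∑ b, (if (x : ZMod p) • a + b ∈ T then 1 else 0) = T.card := by
      intro x _
      rw [← card_filter]
      exact card_shift p n T _
    rw [sum_congr rfl h1]
    simp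
  simp only [h, sum_const, card_V, smul_eq_mul]

lemma bad_key (p n N : ℕ) [Fact p.Prime] (hN : N ≤ p)
    (T B : Finset (Fin n → ZMod p))
    (hstep : ∀ y r : Fin n → ZMod p, y ∈ T → y + r ∈ T → y + (2 : ℕ) • r ∈ T →
      y + (3 : ℕ) • r ∈ T → r ∈ B) (x d : ℕ) (hx : 1 ≤ x) (hd : 1 ≤ d) :
    ∑ a, ∑ b, (if (x ∈ pullA p n N T a b ∧ x + d ∈ pullA p n N T a b ∧
      x + 2 * d ∈ pullA p n N T a b ∧ x + 3 * d ∈ pullA p n N T a b) then 1 else 0)
      ≤ B.card * T.card := by
  by_cases h3 : x + 3 * d ≤ N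
  · have hd0 : (d : ZMod p) ≠ 0 := by
      intro h0
      rw [ZMod.natCast_eq_zero_iff] at h0
      have := Nat.le_of_dvd (by omega) h0
      omega
    calc ∑ a, ∑ b, (if (x ∈ pullA p n N T a b ∧ x + d ∈ pullA p n N T a b ∧
          x + 2 * d ∈ pullA p n N T a b ∧ x + 3 * d ∈ pullA p n N T a b) then 1 else 0)
        ≤ ∑ a : Fin n → ZMod p, ∑ b : Fin n → ZMod p, (if (d : ZMod p) • a ∈ B then
            (if (x : ZMod p) • a + b ∈ T then 1 else 0) else 0) := by
          refine sum_le_sum fun a _ => sum_le_sum fun b _ => ?_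
          by_cases hP : (x ∈ pullA p n N T a b ∧ x + d ∈ pullA p n N T a b ∧
            x + 2 * d ∈ pullA p n N T a b ∧ x + 3 * d ∈ pullA p n N T a b)
          · obtain ⟨h0, h1, h2, h3⟩ := hP
            simp only [pullA, mem_filter] at h0 h1 h2 h3
            have e1 : ((x + d : ℕ) : ZMod p) • a + b = ((x : ZMod p) • a + b) + (d : ZMod p) • a := by
              push_cast; module
            have e2 : ((x + 2 * d : ℕ) : ZMod p) • a + b
                = ((x : ZMod p) • a + b) + (2 : ℕ) • ((d : ZMod p) • a) := by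
              push_cast; module
            have e3 : ((x + 3 * d : ℕ) : ZMod p) • a + b
                = ((x : ZMod p) • a + b) + (3 : ℕ) • ((d : ZMod p) • a) := by
              push_cast; module
            have hB := hstep _ _ h0.2 (e1 ▸ h1.2) (e2 ▸ h2.2) (e3 ▸ h3.2)
            rw [if_pos hB, if_pos h0.2]
            split_ifs <;> simp
          · rw [if_neg hP]
            exact Nat.zero_le _
      _ = ∑ a : Fin n → ZMod p, (if (d : ZMod p) • a ∈ B then T.card else 0) := by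
          refine sum_congr rfl fun a _ => ?_
          split_ifs
          · rw [← card_filter]
            exact card_shift p n T _
          · simp
      _ = (univ.filter (fun a : Fin n → ZMod p => (d : ZMod p) • a ∈ B)).card * T.card := by
          rw [← sum_filter, sum_const, smul_eq_mul]
      _ ≤ B.card * T.card := Nat.mul_le_mul_right _ (card_dil p n B _ hd0)
  · have : ∀ a b : Fin n → ZMod p, ¬ (x ∈ pullA p n N T a b ∧ x + d ∈ pullA p n N T a b ∧
        x + 2 * d ∈ pullA p n N T a b ∧ x + 3 * d ∈ pullA p n N T a b) := by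
      rintro a b ⟨-, -, -, h⟩
      simp only [pullA, mem_filter, mem_Icc] at h
      exact h3 h.1.2
    simp [this]

lemma sum_pullBad (p n N : ℕ) [Fact p.Prime] (hN : N ≤ p)
    (T B : Finset (Fin n → ZMod p))
    (hstep : ∀ y r : Fin n → ZMod p, y ∈ T → y + r ∈ T → y + (2 : ℕ) • r ∈ T →
      y + (3 : ℕ) • r ∈ T → r ∈ B) :
    ∑ a, ∑ b, (pullBad p n N T a b).card ≤ N * N * (B.card * T.card) := by
  simp only [pullBad, card_filter]
  calc ∑ a : Fin n → ZMod p, ∑ b : Fin n → ZMod p, ∑ xd ∈ Icc 1 N ×ˢ Icc 1 N,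
        (if (xd.1 ∈ pullA p n N T a b ∧ xd.1 + xd.2 ∈ pullA p n N T a b ∧
          xd.1 + 2 * xd.2 ∈ pullA p n N T a b ∧ xd.1 + 3 * xd.2 ∈ pullA p n N T a b) then 1 else 0)
      = ∑ a : Fin n → ZMod p, ∑ xd ∈ Icc 1 N ×ˢ Icc 1 N, ∑ b : Fin n → ZMod p,
        (if (xd.1 ∈ pullA p n N T a b ∧ xd.1 + xd.2 ∈ pullA p n N T a b ∧
          xd.1 + 2 * xd.2 ∈ pullA p n N T a b ∧ xd.1 + 3 * xd.2 ∈ pullA p n N T a b) then 1 else 0) :=
        sum_congr rfl fun a _ => sum_comm
    _ = ∑ xd ∈ Icc 1 N ×ˢ Icc 1 N, ∑ a : Fin n → ZMod p, ∑ b : Fin n → ZMod p,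
        (if (xd.1 ∈ pullA p n N T a b ∧ xd.1 + xd.2 ∈ pullA p n N T a b ∧
          xd.1 + 2 * xd.2 ∈ pullA p n N T a b ∧ xd.1 + 3 * xd.2 ∈ pullA p n N T a b) then 1 else 0) :=
        sum_comm
    _ ≤ ∑ _xd ∈ Icc 1 N ×ˢ Icc 1 N, B.card * T.card := by
        refine sum_le_sum fun xd hxd => ?_
        rw [mem_product, mem_Icc, mem_Icc] at hxd
        exact bad_key p n N hN T B hstep xd.1 xd.2 hxd.1.1 hxd.2.1
    _ = N * N * (B.card * T.card) := by
        simp [card_product]

theorem exists_ap4free_of_step (p n N : ℕ) [Fact p.Prime] (hN : N ≤ p)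
    (T B : Finset (Fin n → ZMod p))
    (hstep : ∀ y r : Fin n → ZMod p, y ∈ T → y + r ∈ T → y + (2 : ℕ) • r ∈ T →
      y + (3 : ℕ) • r ∈ T → r ∈ B)
    (hB : 2 * N * B.card ≤ p ^ n) :
    ∃ A : Finset ℕ, A ⊆ Finset.Icc 1 N ∧ AP4Free A ∧ N * T.card ≤ 2 * p ^ n * A.card := by
  have hA := sum_pullA p n N T
  have hBad := sum_pullBad p n N hN T B hstep
  have hsum : ∑ a : Fin n → ZMod p, ∑ b : Fin n → ZMod p,
      (p ^ n * (2 * (pullBad p n N T a b).card) + N * T.card)
      ≤ ∑ a : Fin n → ZMod p, ∑ b : Fin n → ZMod p, p ^ n * (2 * (pullA p n N T a b).card) := by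
    simp only [sum_add_distrib, ← mul_sum, sum_const, card_V, smul_eq_mul, hA]
    have h1 : 2 * ∑ a, ∑ b, (pullBad p n N T a b).card ≤ p ^ n * (N * T.card) := by
      calc 2 * ∑ a, ∑ b, (pullBad p n N T a b).card ≤ 2 * (N * N * (B.card * T.card)) :=
            Nat.mul_le_mul_left _ hBad
        _ = (2 * N * B.card) * (N * T.card) := by ring
        _ ≤ p ^ n * (N * T.card) := Nat.mul_le_mul_right _ hB
    calc p ^ n * (2 * ∑ a, ∑ b, (pullBad p n N T a b).card) + N * (p ^ n * (p ^ n * T.card))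
        ≤ p ^ n * (p ^ n * (N * T.card)) + N * (p ^ n * (p ^ n * T.card)) :=
          Nat.add_le_add_right (Nat.mul_le_mul_left _ h1) _
      _ = p ^ n * (2 * (p ^ n * (N * T.card))) := by ring
  obtain ⟨a, -, ha⟩ := exists_le_of_sum_le (univ_nonempty) hsum
  obtain ⟨b, -, hb⟩ := exists_le_of_sum_le (univ_nonempty) ha
  refine ⟨pullA p n N T a b \ (pullBad p n N T a b).image Prod.fst, ?_, ?_, ?_⟩
  · intro x hx
    rw [mem_sdiff] at hx
    exact (mem_filter.mp hx.1).1
  · rintro x d hd ⟨h0, h1, h2, h3⟩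
    rw [mem_sdiff] at h0 h1 h2 h3
    apply h0.2
    rw [mem_image]
    refine ⟨(x, d), ?_, rfl⟩
    have hx := mem_Icc.mp (mem_filter.mp h0.1).1
    have hxd := mem_Icc.mp (mem_filter.mp h1.1).1
    simp only [pullBad, mem_filter, mem_product, mem_Icc]
    exact ⟨⟨hx, by omega, by omega⟩, h0.1, h1.1, h2.1, h3.1⟩
  · have hc1 : (pullA p n N T a b).card - ((pullBad p n N T a b).image Prod.fst).card
        ≤ (pullA p n N T a b \ (pullBad p n N T a b).image Prod.fst).card :=
      le_card_sdiff _ _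
    have hc2 : ((pullBad p n N T a b).image Prod.fst).card ≤ (pullBad p n N T a b).card :=
      card_image_le
    have hc3 : (pullA p n N T a b).card ≤
        (pullA p n N T a b \ (pullBad p n N T a b).image Prod.fst).card
          + (pullBad p n N T a b).card := by omega
    calc N * T.card ≤ p ^ n * (2 * (pullA p n N T a b).card)
          - p ^ n * (2 * (pullBad p n N T a b).card) := by omega
      _ ≤ p ^ n * (2 * ((pullA p n N T a b \ (pullBad p n N T a b).image Prod.fst).card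
          + (pullBad p n N T a b).card)) - p ^ n * (2 * (pullBad p n N T a b).card) :=
          Nat.sub_le_sub_right (Nat.mul_le_mul_left _ (Nat.mul_le_mul_left _ hc3)) _
      _ = 2 * p ^ n * (pullA p n N T a b \ (pullBad p n N T a b).image Prod.fst).card := by
          rw [mul_add, mul_add, Nat.add_sub_cancel]
          ring

end Vale.Agent.Lib.P057
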