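import Vale.Agent.Lib.P057.Vec

/-!
# P057: counting: the box and the pigeonhole for energy cells

Blueprint for `exists_cell`. Let `W = 2 ρ^2 + 1`, `Γ = Gm a ρ = 4 a^2 + W`. For a digit `z` (`mem_digits`,
`digits_bound`): `0 ≤ en Γ z ≤ 8 a^2 + W`. So `0 ≤ enV Γ z ≤ n (8 a^2 + W)` on `piFinset digits`, and
`enV Γ z / W` lies in `Icc 0 (n (8 a^2 + W) / W)`, a set of `K = n (8a^2+W)/W + 1` integers. The `piFinset` has
`(2a+2b+1)^n` elements (`Fintype.card_piFinset`, `card_digits`) and is the disjoint union of the cells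
(`Finset.card_eq_sum_card_fiberwise`), so some cell has at least `1/K` of them
(`Finset.exists_le_card_fiber_of_mul_le_card_of_maps_to` or a direct argument by contradiction).
-/

namespace Vale.Agent.Lib.P057

open Finset

theorem card_box_image_le (p n ρ : ℕ) : ((box n ρ).image (castV p)).card ≤ (2 * ρ + 1) ^ n := by
  refine le_trans Finset.card_image_le ?_
  unfold box
  rw [Fintype.card_piFinset]
  simp only [Int.card_Icc, Finset.prod_const, Finset.card_univ, Fintype.card_fin]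
  apply le_of_eq
  congr 1
  omega

theorem en_bounds {a b ρ : ℕ} (hb : b ≤ a) {z : ℤ} (h : z ∈ digits a b) :
    0 ≤ en (Gm a ρ) z ∧ en (Gm a ρ) z ≤ 8 * (a : ℤ) ^ 2 + Wd ρ := by
  have B := digits_bound hb h
  have hW : 0 < Wd ρ := by unfold Wd; positivity
  have hG : 0 ≤ Gm a ρ := by unfold Gm; positivity
  have hm : z % 2 = 0 ∨ z % 2 = 1 := by omega
  have hsq : z ^ 2 ≤ 4 * (a : ℤ) ^ 2 := by nlinarith
  unfold en
  rcases hm with hm | hm <;> rw [hm]
  · constructor
    · positivity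
    · nlinarith
  · constructor
    · positivity
    · unfold Gm; linarith

/-- pigeonhole: some energy cell is large. The energy of a vector of digits lies in
`[0, n (8 a^2 + W)]`. -/
theorem exists_cell (a b n ρ : ℕ) (hb : b ≤ a) :
    ∃ c : ℤ, (2 * a + 2 * b + 1) ^ n ≤
      (cell a b n ρ c).card * (n * (8 * a ^ 2 + (2 * ρ ^ 2 + 1)) / (2 * ρ ^ 2 + 1) + 1) := by
  classical
  set K : ℕ := n * (8 * a ^ 2 + (2 * ρ ^ 2 + 1)) / (2 * ρ ^ 2 + 1) + 1 with hK
  set s : Finset (Fin n → ℤ) := Fintype.piFinset fun _ : Fin n => digits a b with hs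
  have hcard : s.card = (2 * a + 2 * b + 1) ^ n := by
    rw [hs, Fintype.card_piFinset]
    simp only [card_digits, Finset.prod_const, Finset.card_univ, Fintype.card_fin]
  have hW : 0 < Wd ρ := by unfold Wd; positivity
  have hWn : Wd ρ = ((2 * ρ ^ 2 + 1 : ℕ) : ℤ) := by unfold Wd; push_cast; ring
  set t : Finset ℤ := Finset.Ico 0 (K : ℤ) with ht
  have htcard : t.card = K := by rw [ht]; simp
  have hmaps : ∀ z ∈ s, enV (Gm a ρ) z / Wd ρ ∈ t := by
    intro z hz
    rw [hs, Fintype.mem_piFinset] at hz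
    have h0 : 0 ≤ enV (Gm a ρ) z := Finset.sum_nonneg fun i _ => (en_bounds hb (hz i)).1
    have h1 : enV (Gm a ρ) z ≤ n * (8 * (a : ℤ) ^ 2 + Wd ρ) := by
      unfold enV
      calc ∑ i, en (Gm a ρ) (z i) ≤ ∑ _i : Fin n, (8 * (a : ℤ) ^ 2 + Wd ρ) :=
            Finset.sum_le_sum fun i _ => (en_bounds hb (hz i)).2
        _ = n * (8 * (a : ℤ) ^ 2 + Wd ρ) := by
            rw [Finset.sum_const, Finset.card_univ, Fintype.card_fin, nsmul_eq_mul]
    rw [ht, Finset.mem_Ico]
    refine ⟨Int.ediv_nonneg h0 hW.le, ?_⟩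
    have h2 : enV (Gm a ρ) z / Wd ρ ≤ (n * (8 * (a : ℤ) ^ 2 + Wd ρ)) / Wd ρ :=
      Int.ediv_le_ediv hW h1
    have h3 : (n * (8 * (a : ℤ) ^ 2 + Wd ρ)) / Wd ρ =
        ((n * (8 * a ^ 2 + (2 * ρ ^ 2 + 1)) / (2 * ρ ^ 2 + 1) : ℕ) : ℤ) := by
      rw [hWn]; push_cast; rfl
    rw [h3] at h2
    rw [hK]; push_cast
    push_cast at h2
    omega
  by_contra hcon
  rw [not_exists] at hcon
  have hlt : ∀ c ∈ t, (cell a b n ρ c).card * K < (2 * a + 2 * b + 1) ^ n := fun c _ =>
    not_le.mp (hcon c)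
  have hKpos : 0 < K := by rw [hK]; exact Nat.succ_pos _
  have hsum : s.card = ∑ c ∈ t, (cell a b n ρ c).card := by
    rw [Finset.card_eq_sum_card_fiberwise hmaps]
    rfl
  have htne : t.Nonempty := by
    rw [← Finset.card_pos, htcard]; exact hKpos
  have : s.card * K < K * (2 * a + 2 * b + 1) ^ n := by
    rw [hsum, Finset.sum_mul]
    calc ∑ c ∈ t, (cell a b n ρ c).card * K < ∑ _c ∈ t, (2 * a + 2 * b + 1) ^ n :=
          Finset.sum_lt_sum_of_nonempty htne hlt
      _ = K * (2 * a + 2 * b + 1) ^ n := by rw [Finset.sum_const, htcard, smul_eq_mul]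
  rw [hcard, mul_comm] at this
  exact lt_irrefl _ this

end Vale.Agent.Lib.P057
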