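import Mathlib

/-!
# P057: four-term progressions, the one-coordinate lemma

Digits modulo an odd `P`: the even integers `2k`, `|k| ≤ a`, and the odd integers `2k+1`, `-b ≤ k < b`.
If `6a < P`, `2a + 3(2b-1) < P` and `b ≤ a`, a four-term progression modulo `P` inside the digit set is either
a genuine integer progression or has the parity pattern odd, even, even, odd.
-/

namespace Vale.Agent.Lib.P057

/-- the digit set -/
noncomputable def digits (a b : ℕ) : Finset ℤ :=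
  (Finset.Icc (-(a : ℤ)) a).image (fun k => 2 * k) ∪
    (Finset.Ico (-(b : ℤ)) b).image (fun k => 2 * k + 1)

theorem mem_digits {a b : ℕ} {z : ℤ} (h : z ∈ digits a b) :
    (z % 2 = 0 ∧ -(2 * (a : ℤ)) ≤ z ∧ z ≤ 2 * a) ∨
      (z % 2 = 1 ∧ -(2 * (b : ℤ) - 1) ≤ z ∧ z ≤ 2 * b - 1) := by
  unfold digits at h
  rw [Finset.mem_union, Finset.mem_image, Finset.mem_image] at h
  rcases h with ⟨k, hk, rfl⟩ | ⟨k, hk, rfl⟩
  · rw [Finset.mem_Icc] at hk
    left; omega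
  · rw [Finset.mem_Ico] at hk
    right; omega

theorem card_digits (a b : ℕ) : (digits a b).card = 2 * a + 2 * b + 1 := by
  unfold digits
  rw [Finset.card_union_of_disjoint, Finset.card_image_of_injective, Finset.card_image_of_injective]
  · simp only [Int.card_Icc, Int.card_Ico]
    omega
  · intro x y h; simp only at h; omega
  · intro x y h; simp only at h; omega
  · rw [Finset.disjoint_left]
    intro z h1 h2
    rw [Finset.mem_image] at h1 h2
    obtain ⟨k, _, rfl⟩ := h1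
    obtain ⟨l, _, hl⟩ := h2
    omega

/-- the energy of a digit -/
def en (Γ : ℤ) (z : ℤ) : ℤ := z ^ 2 + Γ * (z % 2)

theorem digits_bound {a b : ℕ} (hb : b ≤ a) {z : ℤ} (h : z ∈ digits a b) :
    -(2 * (a : ℤ)) ≤ z ∧ z ≤ 2 * a := by
  rcases mem_digits h with h | h <;> omega

/-- a wrapped second difference forces an even middle digit -/
theorem middle_even (P : ℤ) (a b : ℕ) (hP : P % 2 = 1)
    (h2 : 2 * (a : ℤ) + 6 * b < P + 3) (hb : b ≤ a)
    {z0 z1 z2 : ℤ} (m0 : z0 ∈ digits a b) (m1 : z1 ∈ digits a b) (m2 : z2 ∈ digits a b)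
    (d : z0 - 2 * z1 + z2 = P ∨ z0 - 2 * z1 + z2 = -P) : z1 % 2 = 0 := by
  have n0 := mem_digits m0
  have n1 := mem_digits m1
  have n2 := mem_digits m2
  rcases n1 with h1' | h1'
  · exact h1'.1
  · exfalso
    rcases d with d | d <;> rcases n0 with h0 | h0 <;> rcases n2 with h2' | h2' <;> omega

theorem wrap_cases (P : ℤ) (a : ℕ) (h1 : 6 * (a : ℤ) < P) {z0 z1 z2 : ℤ}
    (B0 : -(2 * (a : ℤ)) ≤ z0 ∧ z0 ≤ 2 * a) (B1 : -(2 * (a : ℤ)) ≤ z1 ∧ z1 ≤ 2 * a)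
    (B2 : -(2 * (a : ℤ)) ≤ z2 ∧ z2 ≤ 2 * a) (d : P ∣ z0 - 2 * z1 + z2) :
    z0 - 2 * z1 + z2 = 0 ∨ z0 - 2 * z1 + z2 = P ∨ z0 - 2 * z1 + z2 = -P := by
  obtain ⟨s, hs⟩ := d
  have ha0 : (0 : ℤ) ≤ a := by positivity
  have l : -2 < s := by
    by_contra hc
    have : s ≤ -2 := by omega
    nlinarith
  have u : s < 2 := by
    by_contra hc
    have : 2 ≤ s := by omega
    nlinarith
  interval_cases s
  · right; right; rw [hs]; ring
  · left; rw [hs]; ring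
  · right; left; rw [hs]; ring

theorem core (P : ℤ) (a b : ℕ) (hP : P % 2 = 1) (h1 : 6 * (a : ℤ) < P)
    (h2 : 2 * (a : ℤ) + 6 * b < P + 3) (hb : b ≤ a)
    {z0 z1 z2 z3 : ℤ} (m0 : z0 ∈ digits a b) (m1 : z1 ∈ digits a b) (m2 : z2 ∈ digits a b)
    (m3 : z3 ∈ digits a b) (d1 : P ∣ z0 - 2 * z1 + z2) (d2 : P ∣ z1 - 2 * z2 + z3) :
    (z0 - 2 * z1 + z2 = 0 ∧ z1 - 2 * z2 + z3 = 0) ∨
      (z0 % 2 = 1 ∧ z1 % 2 = 0 ∧ z2 % 2 = 0 ∧ z3 % 2 = 1) := by
  have B0 := digits_bound hb m0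
  have B1 := digits_bound hb m1
  have B2 := digits_bound hb m2
  have B3 := digits_bound hb m3
  have c1 := wrap_cases P a h1 B0 B1 B2 d1
  have c2 := wrap_cases P a h1 B1 B2 B3 d2
  rcases c1 with c1 | c1
  · rcases c2 with c2 | c2
    · exact Or.inl ⟨c1, c2⟩
    · exfalso
      rcases c2 with c2 | c2 <;> omega
  · rcases c2 with c2 | c2
    · exfalso
      rcases c1 with c1 | c1 <;> omega
    · right
      have e1 : z1 % 2 = 0 := middle_even P a b hP h2 hb m0 m1 m2 c1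
      have c2' : z3 - 2 * z2 + z1 = P ∨ z3 - 2 * z2 + z1 = -P := by
        rcases c2 with c2 | c2
        · left; omega
        · right; omega
      have e2 : z2 % 2 = 0 := middle_even P a b hP h2 hb m3 m2 m1 c2'
      refine ⟨?_, e1, e2, ?_⟩
      · rcases c1 with c1 | c1 <;> omega
      · rcases c2 with c2 | c2 <;> omega

theorem core_energy (P : ℤ) (a b : ℕ) (hP : P % 2 = 1) (h1 : 6 * (a : ℤ) < P)
    (h2 : 2 * (a : ℤ) + 6 * b < P + 3) (hb : b ≤ a) (Γ : ℤ)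
    {z0 z1 z2 z3 : ℤ} (m0 : z0 ∈ digits a b) (m1 : z1 ∈ digits a b) (m2 : z2 ∈ digits a b)
    (m3 : z3 ∈ digits a b) (d1 : P ∣ z0 - 2 * z1 + z2) (d2 : P ∣ z1 - 2 * z2 + z3) :
    (en Γ z0 - en Γ z1 - en Γ z2 + en Γ z3 = 4 * (z1 - z0) ^ 2) ∨
      (2 * Γ - 8 * (a : ℤ) ^ 2 ≤ en Γ z0 - en Γ z1 - en Γ z2 + en Γ z3) := by
  rcases core P a b hP h1 h2 hb m0 m1 m2 m3 d1 d2 with ⟨e1, e2⟩ | ⟨p0, p1, p2, p3⟩
  · left
    have hz2 : z2 = 2 * z1 - z0 := by omega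
    have hz3 : z3 = 3 * z1 - 2 * z0 := by omega
    have q2 : z2 % 2 = z0 % 2 := by omega
    have q3 : z3 % 2 = z1 % 2 := by omega
    unfold en
    rw [q2, q3, hz2, hz3]
    ring
  · right
    have n1 := mem_digits m1
    have n2 := mem_digits m2
    have B1 : -(2 * (a : ℤ)) ≤ z1 ∧ z1 ≤ 2 * a := by rcases n1 with h | h <;> omega
    have B2 : -(2 * (a : ℤ)) ≤ z2 ∧ z2 ≤ 2 * a := by rcases n2 with h | h <;> omega
    unfold en
    rw [p0, p1, p2, p3]
    nlinarith [sq_nonneg z0, sq_nonneg z3]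

end Vale.Agent.Lib.P057
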