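import Vale.Agent.Lib.P057.Step
import Vale.Agent.Lib.P057.Cell
import Vale.Agent.Lib.P057.Average

/-!
# P057: the finite bound
-/

namespace Vale.Agent.Lib.P057

open Finset

theorem finite_bound (p n N a b ρ : ℕ) [Fact p.Prime] (hp : p % 2 = 1) (hN : N ≤ p)
    (h1 : 6 * a < p) (h2 : 2 * a + 6 * b < p + 3) (hb : b ≤ a)
    (hρ : 2 * N * (2 * ρ + 1) ^ n ≤ p ^ n) :
    ∃ A : Finset ℕ, A ⊆ Finset.Icc 1 N ∧ AP4Free A ∧
      N * (2 * a + 2 * b + 1) ^ n ≤
        2 * p ^ n * (n * (8 * a ^ 2 + (2 * ρ ^ 2 + 1)) / (2 * ρ ^ 2 + 1) + 1) * A.card := by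
  obtain ⟨c, hc⟩ := exists_cell a b n ρ hb
  set K := n * (8 * a ^ 2 + (2 * ρ ^ 2 + 1)) / (2 * ρ ^ 2 + 1) + 1 with hK
  have hT : ((cell a b n ρ c).image (castV p)).card = (cell a b n ρ c).card := by
    apply Finset.card_image_of_injOn
    apply (castV_injOn p a b h1 hb).mono
    intro z hz
    exact (Finset.mem_filter.mp hz).1
  have hB : 2 * N * ((box n ρ).image (castV p)).card ≤ p ^ n :=
    le_trans (Nat.mul_le_mul_left _ (card_box_image_le p n ρ)) hρ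
  obtain ⟨A, hA1, hA2, hA3⟩ := exists_ap4free_of_step p n N hN
    ((cell a b n ρ c).image (castV p)) ((box n ρ).image (castV p))
    (fun y r m0 m1 m2 m3 => step_mem_box p a b ρ hp h1 h2 hb c y r m0 m1 m2 m3) hB
  refine ⟨A, hA1, hA2, ?_⟩
  rw [hT] at hA3
  calc N * (2 * a + 2 * b + 1) ^ n ≤ N * ((cell a b n ρ c).card * K) := Nat.mul_le_mul_left _ hc
    _ = (N * (cell a b n ρ c).card) * K := by ring
    _ ≤ (2 * p ^ n * A.card) * K := Nat.mul_le_mul_right _ hA3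
    _ = 2 * p ^ n * K * A.card := by ring

end Vale.Agent.Lib.P057
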