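import Vale.Agent.Lib.P057.Finite

/-!
# P057: choice of the parameters `p, a, b, ρ`

Blueprint for `param_bound`. `u ≥ 2` because `2 ≤ 2 N ≤ u^n`. Take a prime `N < p ≤ 2 N`
(`Nat.exists_prime_lt_and_le_two_mul`); `p > 12`, so `p` is odd. Put `a = (p - 1) / 6`, `b = (p + 2 - 2 a) / 6`,
`w = p / u`, `ρ = (w - 1) / 2`. Then (omega) `6 a < p`, `2 a + 6 b < p + 3`, `b ≤ a`, `9 (2 a + 2 b + 1) + 17 ≥ 5 p`,
`2 ρ + 1 ≤ w`, `w u ≤ p`, so `2 N (2 ρ + 1)^n ≤ u^n w^n ≤ p^n`. Apply `finite_bound`.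
Real estimates: `((2a+2b+1)/p)^n ≥ (5/9)^n (1 - 17/(5p))^n ≥ (5/9)^n (1 - 17 n/(5 p)) ≥ (5/9)^n / 2`
(`one_add_mul_le_pow`, `7 n ≤ N < p`); `ρ ≥ p/(4u)` because `p ≥ 6 u`; so `2 ρ^2 + 1 ≥ p^2/(8 u^2)`,
`8 a^2 ≤ 2 p^2/9`, and `K = n (8a^2 + W)/W + 1 ≤ n (16 u^2/9 + 1) + 1 ≤ 4 n u^2`.
-/

namespace Vale.Agent.Lib.P057

open Finset

lemma K_bound (n u p a ρ : ℕ) (hn : 1 ≤ n) (hu : 2 ≤ u) (ha : 6 * a < p) (hρ : p ≤ 4 * u * ρ) :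
    n * (8 * a ^ 2 + (2 * ρ ^ 2 + 1)) / (2 * ρ ^ 2 + 1) + 1 ≤ 4 * n * u ^ 2 := by
  have hW : 0 < 2 * ρ ^ 2 + 1 := by positivity
  rw [Nat.succ_le_iff, Nat.div_lt_iff_lt_mul hW]
  have h1 : 3 * a ≤ 2 * (u * ρ) := by nlinarith
  have h2 : 9 * a ^ 2 ≤ 4 * (u * ρ) ^ 2 := by nlinarith
  have h3 : ρ ^ 2 ≤ (u * ρ) ^ 2 := by
    apply Nat.pow_le_pow_left
    nlinarith
  have h4 : 8 * a ^ 2 + (2 * ρ ^ 2 + 1) < 4 * u ^ 2 * (2 * ρ ^ 2 + 1) := by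
    have e : (u * ρ) ^ 2 = u ^ 2 * ρ ^ 2 := by ring
    have h5 : 4 ≤ u ^ 2 := by nlinarith
    nlinarith
  calc n * (8 * a ^ 2 + (2 * ρ ^ 2 + 1)) < n * (4 * u ^ 2 * (2 * ρ ^ 2 + 1)) :=
        Nat.mul_lt_mul_of_pos_left h4 (by omega)
    _ = 4 * n * u ^ 2 * (2 * ρ ^ 2 + 1) := by ring

lemma pow_bound (n p s : ℕ) (hn : 1 ≤ n) (hs : 5 * p ≤ 9 * s + 17) (hnp : 7 * n < p) :
    ((5 : ℝ) / 9) ^ n * (p : ℝ) ^ n ≤ 2 * (s : ℝ) ^ n := by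
  have hp0 : (0 : ℝ) < p := by
    have : 0 < p := by omega
    exact_mod_cast this
  have hs' : (5 : ℝ) * p ≤ 9 * s + 17 := by exact_mod_cast hs
  have hnp' : (7 : ℝ) * n < p := by exact_mod_cast hnp
  set t : ℝ := 17 / (5 * p) with ht
  have htp : t * (5 * p) = 17 := by
    rw [ht]; field_simp
  have ht0 : 0 < t := by positivity
  have hnt : (n : ℝ) * t ≤ 1 / 2 := by
    have : (n : ℝ) * t * (5 * p) ≤ 1 / 2 * (5 * p) := by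
      have : (n : ℝ) * t * (5 * p) = 17 * n := by rw [mul_assoc, htp]; ring
      rw [this]; linarith
    exact le_of_mul_le_mul_right this (by positivity)
  have ht1 : t ≤ 1 := by
    have : (1 : ℝ) ≤ n := by exact_mod_cast hn
    nlinarith
  have hB : 1 + (n : ℝ) * (-t) ≤ (1 + (-t)) ^ n := one_add_mul_le_pow (by linarith) n
  have hbase : (5 : ℝ) / 9 * p * (1 + (-t)) ≤ s := by
    have : (5 : ℝ) / 9 * p * (1 + (-t)) = (5 * p - t * (5 * p)) / 9 := by ring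
    rw [this, htp]; linarith
  have hbase0 : 0 ≤ (5 : ℝ) / 9 * p * (1 + (-t)) := by
    apply mul_nonneg (by positivity); linarith
  have hpow := pow_le_pow_left₀ hbase0 hbase n
  rw [mul_pow, mul_pow] at hpow
  have hc : 0 ≤ ((5 : ℝ) / 9) ^ n * (p : ℝ) ^ n := by positivity
  nlinarith

theorem param_bound (n N u : ℕ) (hn : 1 ≤ n) (hu : 2 * N ≤ u ^ n) (hNu : 6 * u ≤ N)
    (hNn : 7 * n ≤ N) :
    ∃ A : Finset ℕ, A ⊆ Finset.Icc 1 N ∧ AP4Free A ∧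
      (N : ℝ) * (5 / 9) ^ n ≤ 16 * n * (u : ℝ) ^ 2 * A.card := by
  have hu2 : 2 ≤ u := by
    by_contra h
    have h1 : u ≤ 1 := by omega
    have h2 : u ^ n ≤ 1 := Nat.pow_le_one_iff (by omega) |>.2 h1
    omega
  obtain ⟨p, hp, hNp, hp2⟩ := Nat.exists_prime_lt_and_le_two_mul N (by omega)
  have : Fact p.Prime := ⟨hp⟩
  have hodd : p % 2 = 1 := by
    rcases hp.eq_two_or_odd with h | h
    · omega
    · exact h
  obtain ⟨a, ha⟩ : ∃ a, a = (p - 1) / 6 := ⟨_, rfl⟩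
  obtain ⟨b, hb⟩ : ∃ b, b = (p + 2 - 2 * a) / 6 := ⟨_, rfl⟩
  obtain ⟨w, hw⟩ : ∃ w, w = p / u := ⟨_, rfl⟩
  obtain ⟨ρ, hρ⟩ : ∃ ρ, ρ = (w - 1) / 2 := ⟨_, rfl⟩
  have h1 : 6 * a < p := by omega
  have h2 : 2 * a + 6 * b < p + 3 := by omega
  have h3 : b ≤ a := by omega
  have h4 : 5 * p ≤ 9 * (2 * a + 2 * b + 1) + 17 := by omega
  have hwu : u * w ≤ p := by rw [hw]; exact Nat.mul_div_le p u
  have hwu2 : p < u * (w + 1) := by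
    rw [hw]; exact Nat.lt_mul_div_succ p (by omega)
  have hw1 : 1 ≤ w := by
    rw [hw]; exact (Nat.one_le_div_iff (by omega)).2 (by omega)
  have h5 : 2 * ρ + 1 ≤ w := by omega
  have h6 : w ≤ 2 * ρ + 2 := by omega
  have h7 : p ≤ 4 * u * ρ := by
    have : u * (w + 1) ≤ u * (2 * ρ + 3) := Nat.mul_le_mul_left _ (by omega)
    nlinarith
  have h8 : 2 * N * (2 * ρ + 1) ^ n ≤ p ^ n := by
    calc 2 * N * (2 * ρ + 1) ^ n ≤ u ^ n * w ^ n :=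
          Nat.mul_le_mul hu (Nat.pow_le_pow_left h5 n)
      _ = (u * w) ^ n := (mul_pow u w n).symm
      _ ≤ p ^ n := Nat.pow_le_pow_left hwu n
  obtain ⟨A, hA1, hA2, hA3⟩ := finite_bound p n N a b ρ hodd hNp.le h1 h2 h3 h8
  refine ⟨A, hA1, hA2, ?_⟩
  have hK := K_bound n u p a ρ hn hu2 h1 h7
  have hP := pow_bound n p (2 * a + 2 * b + 1) hn h4 (by omega)
  set K := n * (8 * a ^ 2 + (2 * ρ ^ 2 + 1)) / (2 * ρ ^ 2 + 1) + 1 with hKdef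
  have hA3' : (N : ℝ) * ((2 * a + 2 * b + 1 : ℕ) : ℝ) ^ n ≤ 2 * (p : ℝ) ^ n * K * A.card := by
    exact_mod_cast hA3
  have hK' : (K : ℝ) ≤ 4 * n * (u : ℝ) ^ 2 := by exact_mod_cast hK
  have hpn : (0 : ℝ) < (p : ℝ) ^ n := by
    have : (0 : ℝ) < p := by exact_mod_cast hp.pos
    positivity
  have hN0 : (0 : ℝ) ≤ N := Nat.cast_nonneg _
  have hc0 : (0 : ℝ) ≤ A.card := Nat.cast_nonneg _
  have e1 : (N : ℝ) * (5 / 9) ^ n * (p : ℝ) ^ n ≤ (4 * K * A.card) * (p : ℝ) ^ n := by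
    calc (N : ℝ) * (5 / 9) ^ n * (p : ℝ) ^ n = N * ((5 / 9) ^ n * (p : ℝ) ^ n) := by ring
      _ ≤ N * (2 * ((2 * a + 2 * b + 1 : ℕ) : ℝ) ^ n) := mul_le_mul_of_nonneg_left hP hN0
      _ = 2 * (N * ((2 * a + 2 * b + 1 : ℕ) : ℝ) ^ n) := by ring
      _ ≤ 2 * (2 * (p : ℝ) ^ n * K * A.card) := by linarith
      _ = (4 * K * A.card) * (p : ℝ) ^ n := by ring
  have e2 : (N : ℝ) * (5 / 9) ^ n ≤ 4 * K * A.card := le_of_mul_le_mul_right e1 hpn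
  calc (N : ℝ) * (5 / 9) ^ n ≤ 4 * K * A.card := e2
    _ ≤ 4 * (4 * n * (u : ℝ) ^ 2) * A.card := by gcongr
    _ = 16 * n * (u : ℝ) ^ 2 * A.card := by ring

end Vale.Agent.Lib.P057
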