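import Vale.Agent.Lib.P057.Vec

/-!
# P057: the step lemma

Blueprint for `step_mem_box`. Take preimages `z0 z1 z2 z3` in the cell of `y`, `y + r`, `y + 2r`, `y + 3r`.
For every coordinate `i` the casts of `z0 i - 2 z1 i + z2 i` and `z1 i - 2 z2 i + z3 i` vanish in `ZMod p`, so `p`
divides them (`ZMod.intCast_zmod_eq_zero_iff_dvd` or `ZMod.intCast_cast`, `ZMod.intCast_eq_intCast_iff_dvd_sub`).
Put `Φ i = en Γ (z0 i) - en Γ (z1 i) - en Γ (z2 i) + en Γ (z3 i)` with `Γ = Gm a ρ`, `W = Wd ρ`.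
By `core_energy`, `Φ i = 4 (z1 i - z0 i)^2` or `Φ i ≥ 2 Γ - 8 a^2 = 2 W`; in both cases `Φ i ≥ 0`.
All four energies lie in `[c W, c W + W - 1]` (`Int.ediv`), so `∑ Φ i ≤ 2 (W - 1)`, hence every `Φ i ≤ 2 (W - 1) < 2 W`
(`Finset.single_le_sum`). So `4 (z1 i - z0 i)^2 ≤ 4 ρ^2`, i.e. `|z1 i - z0 i| ≤ ρ` (`abs_le_of_sq_le_sq'` etc.),
and `r = castV p (z1 - z0)`.
-/

namespace Vale.Agent.Lib.P057

open Finset

variable {n : ℕ}

theorem mem_cell {a b ρ : ℕ} {c : ℤ} {z : Fin n → ℤ} (h : z ∈ cell a b n ρ c) :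
    (∀ i, z i ∈ digits a b) ∧ c * Wd ρ ≤ enV (Gm a ρ) z ∧ enV (Gm a ρ) z ≤ c * Wd ρ + (Wd ρ - 1) := by
  unfold cell at h
  rw [Finset.mem_filter, Fintype.mem_piFinset] at h
  obtain ⟨h1, h2⟩ := h
  have hW : 0 < Wd ρ := by unfold Wd; positivity
  refine ⟨h1, ?_, ?_⟩
  · rw [← h2]
    exact Int.ediv_mul_le _ hW.ne'
  · rw [← h2]
    have := Int.lt_ediv_add_one_mul_self (enV (Gm a ρ) z) hW
    linarith

theorem step_mem_box (p a b ρ : ℕ) (hp : p % 2 = 1) (h1 : 6 * a < p) (h2 : 2 * a + 6 * b < p + 3)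
    (hb : b ≤ a) (c : ℤ) (y r : Fin n → ZMod p)
    (m0 : y ∈ (cell a b n ρ c).image (castV p))
    (m1 : y + r ∈ (cell a b n ρ c).image (castV p))
    (m2 : y + (2 : ℕ) • r ∈ (cell a b n ρ c).image (castV p))
    (m3 : y + (3 : ℕ) • r ∈ (cell a b n ρ c).image (castV p)) :
    r ∈ (box n ρ).image (castV p) := by
  rw [Finset.mem_image] at m0 m1 m2 m3
  obtain ⟨z0, hz0, e0⟩ := m0
  obtain ⟨z1, hz1, e1⟩ := m1
  obtain ⟨z2, hz2, e2⟩ := m2
  obtain ⟨z3, hz3, e3⟩ := m3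
  obtain ⟨D0, L0, U0⟩ := mem_cell hz0
  obtain ⟨D1, L1, U1⟩ := mem_cell hz1
  obtain ⟨D2, L2, U2⟩ := mem_cell hz2
  obtain ⟨D3, L3, U3⟩ := mem_cell hz3
  have hP : (p : ℤ) % 2 = 1 := by omega
  have h1' : 6 * (a : ℤ) < p := by exact_mod_cast h1
  have h2' : 2 * (a : ℤ) + 6 * b < p + 3 := by exact_mod_cast h2
  have c0 : ∀ i, ((z0 i : ℤ) : ZMod p) = y i := fun i => congrFun e0 i
  have c1 : ∀ i, ((z1 i : ℤ) : ZMod p) = y i + r i := fun i => congrFun e1 i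
  have c2 : ∀ i, ((z2 i : ℤ) : ZMod p) = y i + 2 * r i := fun i => by
    have := congrFun e2 i
    simpa [castV, two_mul] using this
  have c3 : ∀ i, ((z3 i : ℤ) : ZMod p) = y i + 3 * r i := fun i => by
    have := congrFun e3 i
    simpa [castV, nsmul_eq_mul] using this
  have d1 : ∀ i, (p : ℤ) ∣ z0 i - 2 * z1 i + z2 i := fun i => by
    rw [← ZMod.intCast_zmod_eq_zero_iff_dvd]
    push_cast
    rw [c0, c1, c2]; ring
  have d2 : ∀ i, (p : ℤ) ∣ z1 i - 2 * z2 i + z3 i := fun i => by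
    rw [← ZMod.intCast_zmod_eq_zero_iff_dvd]
    push_cast
    rw [c1, c2, c3]; ring
  set Γ := Gm a ρ with hΓ
  set W := Wd ρ with hW
  have hWpos : 0 < W := by rw [hW]; unfold Wd; positivity
  let Φ : Fin n → ℤ := fun i => en Γ (z0 i) - en Γ (z1 i) - en Γ (z2 i) + en Γ (z3 i)
  have alt : ∀ i, Φ i = 4 * (z1 i - z0 i) ^ 2 ∨ 2 * W ≤ Φ i := fun i => by
    rcases core_energy p a b hP h1' h2' hb Γ (D0 i) (D1 i) (D2 i) (D3 i) (d1 i) (d2 i) with h | h
    · exact Or.inl h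
    · right
      have : 2 * Γ - 8 * (a : ℤ) ^ 2 = 2 * W := by rw [hΓ]; unfold Gm; ring
      rw [← this]; exact h
  have nonneg : ∀ i, 0 ≤ Φ i := fun i => by
    rcases alt i with h | h
    · rw [h]; positivity
    · linarith
  have hsum : ∑ i, Φ i = enV Γ z0 - enV Γ z1 - enV Γ z2 + enV Γ z3 := by
    simp only [Φ, enV, Finset.sum_add_distrib, Finset.sum_sub_distrib]
  have hle : ∀ i, Φ i ≤ 2 * (W - 1) := fun i => by
    have h3 : Φ i ≤ ∑ j, Φ j := Finset.single_le_sum (fun j _ => nonneg j) (Finset.mem_univ i)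
    rw [hsum] at h3
    linarith
  have hτ : ∀ i, -(ρ : ℤ) ≤ z1 i - z0 i ∧ z1 i - z0 i ≤ ρ := fun i => by
    rcases alt i with h | h
    · have h4 := hle i
      rw [h, hW] at h4
      unfold Wd at h4
      have h5 : (z1 i - z0 i) ^ 2 ≤ (ρ : ℤ) ^ 2 := by linarith
      have h6 := abs_le_of_sq_le_sq' h5 (by positivity)
      exact h6
    · have := hle i
      linarith
  rw [Finset.mem_image]
  refine ⟨fun i => z1 i - z0 i, ?_, ?_⟩
  · unfold box
    rw [Fintype.mem_piFinset]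
    intro i
    rw [Finset.mem_Icc]
    exact hτ i
  · funext i
    show (((z1 i - z0 i : ℤ)) : ZMod p) = r i
    push_cast
    rw [c0, c1]; ring

theorem castV_injOn (p a b : ℕ) (h1 : 6 * a < p) (hb : b ≤ a) :
    Set.InjOn (castV p) (↑(Fintype.piFinset fun _ : Fin n => digits a b) : Set (Fin n → ℤ)) := by
  intro z hz w hw h
  rw [Finset.mem_coe, Fintype.mem_piFinset] at hz hw
  funext i
  have h3 : ((z i : ℤ) : ZMod p) = ((w i : ℤ) : ZMod p) := congrFun h i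
  rw [ZMod.intCast_eq_intCast_iff_dvd_sub] at h3
  obtain ⟨k, hk⟩ := h3
  have Bz := digits_bound hb (hz i)
  have Bw := digits_bound hb (hw i)
  have h1' : 6 * (a : ℤ) < p := by exact_mod_cast h1
  have ha0 : (0 : ℤ) ≤ a := by positivity
  have hk0 : k = 0 := by
    by_contra hne
    rcases lt_or_gt_of_ne hne with hlt | hgt
    · have : k ≤ -1 := by omega
      nlinarith
    · have : 1 ≤ k := by omega
      nlinarith
  rw [hk0, mul_zero] at hk
  omega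

end Vale.Agent.Lib.P057
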