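import Vale.Agent.Lib.P057.Core

/-!
# P057: vectors of digits, energy cells, boxes (definitions)
-/


namespace Vale.Agent.Lib.P057

open Finset

variable {n : ℕ}

/-- total energy of a vector of digits -/
def enV (Γ : ℤ) (z : Fin n → ℤ) : ℤ := ∑ i, en Γ (z i)

/-- width of an energy cell -/
def Wd (ρ : ℕ) : ℤ := 2 * (ρ : ℤ) ^ 2 + 1

/-- the energy offset of the odd digits -/
def Gm (a ρ : ℕ) : ℤ := 4 * (a : ℤ) ^ 2 + Wd ρ

/-- vectors of digits whose energy lies in the `c`-th cell `[cW, (c+1)W)` -/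
noncomputable def cell (a b n ρ : ℕ) (c : ℤ) : Finset (Fin n → ℤ) :=
  (Fintype.piFinset fun _ : Fin n => digits a b).filter (fun z => enV (Gm a ρ) z / Wd ρ = c)

/-- coordinatewise reduction modulo `p` -/
def castV (p : ℕ) (z : Fin n → ℤ) : Fin n → ZMod p := fun i => (z i : ZMod p)

/-- the box `[-ρ, ρ]^n` -/
noncomputable def box (n ρ : ℕ) : Finset (Fin n → ℤ) :=
  Fintype.piFinset fun _ : Fin n => Finset.Icc (-(ρ : ℤ)) ρ

end Vale.Agent.Lib.P057
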